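import Vale.Agent.N033R.Final

/-- Sign sequences with a two-level periodic autocorrelation (1); difference sets whose order is a
divisor of the exponent of the abelianization times self-conjugate primes (2). -/
theorem Vale.Agent.Results.P033.A0Ryser.result :
    (∀ (n : ℕ) [NeZero n] (h : ZMod n → ℤ) (c : ℤ), (∀ j, h j = 1 ∨ h j = -1) →
      (∀ t, t ≠ 0 → ∑ j, h j * h (j + t) = c) → (n : ℤ) - c ∣ 4 * n →
      ∃ i s, ∀ j, j ≠ i → h j = s) ∧
    (∀ (G : Type) [Group G] [Finite G] [DecidableEq G] (D : Finset G) (l a b : ℕ),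
      (∀ g, g ≠ 1 → ((D ×ˢ D).filter fun x => x.1 * x.2⁻¹ = g).card = l) →
      D.card = l + a * b →
      a ∣ Monoid.exponent (Abelianization G) →
      (Odd a ∨ ∀ j, 2 ^ j ∣ Nat.card G → 2 ^ j ∣ Monoid.exponent (Abelianization G)) →
      (∀ r : ℕ, r.Prime → r ∣ b → ∃ j, 1 ≤ j ∧ Monoid.exponent (Abelianization G) ∣ r ^ j + 1) →
      (a = 1 ∨ ∃ u : ℤ, u ^ 2 = a * b ∧ (Nat.card (Abelianization G) : ℤ) ∣ D.card - u) ∧
        (Group.IsNilpotent G → a = 1)) := by
  refine ⟨fun n _ => Vale.Agent.N033R.two_level, fun G _ _ _ D l a b hD => ?_⟩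
  have := Fintype.ofFinite G
  exact Vale.Agent.N033R.general D l a b fun g hg =>
    Vale.Agent.N033R.card_pairs D g ▸ hD g hg
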